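import Vale.Agent.P133F.Conv
import Vale.Agent.P133F.Final

namespace Vale.Agent.Results.P133.AllAndFiniteNuclear

universe u

open Vale.Agent.P133.Statement Vale.Agent.P133F

/-- (1) Question (a) for ALL C*-algebras: pure infiniteness and strong pure infiniteness are
equivalent. (2) Pure infiniteness always implies weak pure infiniteness. (3) Question (b) for
C*-algebras of finite nuclear dimension: weak pure infiniteness implies pure infiniteness and
strong pure infiniteness, so that the three notions coincide for this class. -/
theorem result (A : Type u) [NonUnitalCStarAlgebra A] [PartialOrder A] [StarOrderedRing A] :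
    (PurelyInfinite A ↔ StronglyPurelyInfinite A) ∧
    (PurelyInfinite A → WeaklyPurelyInfinite A) ∧
    ((∃ d : ℕ, NuclearDimensionLE A d) →
      ((WeaklyPurelyInfinite A ↔ PurelyInfinite A) ∧
        (WeaklyPurelyInfinite A ↔ StronglyPurelyInfinite A))) := by
  have hps : PurelyInfinite A ↔ StronglyPurelyInfinite A := by
    refine ⟨fun hA x y hx hy ε hε => ?_, fun hA => pi_of_spi hA⟩
    exact Vale.Agent.P133.main A (fun h h0 ε hε => elementwise hA h h0 ε hε) x y hx hy ε hε
  refine ⟨hps, wpi_of_pi, ?_⟩
  rintro ⟨d, hd⟩
  have hwp : WeaklyPurelyInfinite A ↔ PurelyInfinite A := ⟨fun h => (main hd h).1, wpi_of_pi⟩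
  exact ⟨hwp, hwp.trans hps⟩

end Vale.Agent.Results.P133.AllAndFiniteNuclear
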