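import Vale.Agent.P133.H832.BuiltIB
import Vale.Agent.P133.H832.Diag

namespace Vale.Agent.Results.P133.AllWithPermanence

universe u v

open Vale.Agent.P133.Statement Vale.Agent.P133.H832
open Vale.Agent.P133.H681 (IsTopDimZero)

/-- (1) Question (a), as posed: a C*-algebra is purely infinite if and only if it is strongly
purely infinite.
(2) This is the case if and only if every finite family of elements, positive or not, is
diagonalized by contractions.
(3) Question (b): weakly, ordinary and strongly purely infinite coincide for every C*-algebra in
the smallest class that contains the C*-algebras of finite inductive dimension and those of finite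
nuclear dimension and is closed under upper semicontinuous fields over finitely separated spaces,
extensions, dense unions of ideals, arbitrary bounded products, and `C₀(X, ·)`. The class contains
all C*-algebras whose closed ideals are totally ordered (for example the simple ones) and all
those of topological dimension zero.
(4) If `A` is the algebra of sections of an upper semicontinuous field over a finitely separated
space, it is purely infinite if and only if all fibres are.
(5) `C₀(X, A)` is purely infinite if and only if `A` is.
(6) A bounded product is purely infinite if and only if all its factors are.
(7) For `0 → J → A → B → 0` exact, `A` is purely infinite if and only if `J` and `B` are.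
(8) If `A` has a dense union of ideals `J i`, it is purely infinite if and only if all `J i` are.
In (4) - (8), if the three notions coincide for the constituents, they do for the algebra. -/
theorem result :
    (∀ (A : Type u) [NonUnitalCStarAlgebra A] [PartialOrder A] [StarOrderedRing A],
      (PurelyInfinite A ↔ StronglyPurelyInfinite A) ∧ (PurelyInfinite A ↔ Diag A)) ∧
    (∀ (A : Type u) [NonUnitalCStarAlgebra A] [PartialOrder A] [StarOrderedRing A],
      (BuiltI A → Coincide A) ∧ (IsChainC A ∨ IsTopDimZero A → BuiltI A)) ∧
    Fields.{u} ∧ FunctionAlgebras.{u, v} ∧ BoundedProducts.{u, v} ∧ Extensions.{u} ∧
      Unions.{u, v} :=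
  ⟨fun A _ _ _ => ⟨pi_iff_spi A, ⟨fun h => diag_of_eltPI A (eltPI_of A h),
      fun h => pi_of_spi (spi_of_diag A h)⟩⟩, fun _ _ _ _ => ⟨builtI_coincide, builtI_of⟩,
    fields, functionAlgebras, boundedProducts, extensions, unions⟩

end Vale.Agent.Results.P133.AllWithPermanence
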