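import Vale.Agent.P133F.Conv
import Vale.Agent.P133F.Final

namespace Vale.Agent.Results.P133.FiniteNuclearDimension

universe u

open Vale.Agent.P133.Statement Vale.Agent.P133F

/-- For C*-algebras of finite nuclear dimension, weak pure infiniteness, pure infiniteness and
strong pure infiniteness are equivalent. -/
theorem result (A : Type u) [NonUnitalCStarAlgebra A] [PartialOrder A] [StarOrderedRing A]
    (d : ℕ) (hd : NuclearDimensionLE A d) :
    (WeaklyPurelyInfinite A ↔ PurelyInfinite A) ∧
      (PurelyInfinite A ↔ StronglyPurelyInfinite A) :=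
  ⟨⟨fun h => (main hd h).1, wpi_of_pi⟩,
    ⟨fun h => (main hd (wpi_of_pi h)).2, pi_of_spi⟩⟩

end Vale.Agent.Results.P133.FiniteNuclearDimension
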