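import Vale.Agent.P133.H681.Generic2
import Vale.Agent.P133.H832.BuiltIB

namespace Vale.Agent.Results.P133.GenericForm

universe u

open Vale.Agent.P133.Statement Vale.Agent.P133.H832 Vale.Agent.P133.H681 Vale.Agent.P133F

/-- Question (b). For every weakly purely infinite C*-algebra `A`:
(1) If `a ≥ 0` is not in the closed ideal `J`, then there is `c ≥ 0` outside `J` all of whose
multiples are Cuntz below `a`.
(2) For every `a ≥ 0` there is a closed ideal `D`, essential in the closed ideal generated by `a`,
such that all multiples of every positive element of `D` are Cuntz below `a`.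
(3) `A` is purely infinite if and only if for every `a ≥ 0` the set of all `c ≥ 0` with all
multiples below `a` is closed under addition.
(4) Weakly, ordinary and strongly purely infinite coincide for C*-algebras of finite inductive
dimension.
(5) C*-algebras with totally ordered closed ideals and those of topological dimension zero have
inductive dimension zero. -/
theorem result :
    (∀ (A : Type u) [NonUnitalCStarAlgebra A] [PartialOrder A] [StarOrderedRing A],
      WeaklyPurelyInfinite A →
        (∀ a : A, 0 ≤ a →
          (∀ J : Submodule ℂ A, IsClosedIdeal J → a ∉ J → ∃ c, 0 ≤ c ∧ c ∉ J ∧ AllBelow a c) ∧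
          ∃ D : Submodule ℂ A, IsClosedIdeal D ∧ IsEssentialIn D a ∧
            ∀ c ∈ D, 0 ≤ c → AllBelow a c) ∧
        (PurelyInfinite A ↔ ∀ a c c' : A, 0 ≤ a → 0 ≤ c → 0 ≤ c' →
          AllBelow a c → AllBelow a c' → AllBelow a (c + c'))) ∧
    (∀ (n : ℕ) (A : Type u) [NonUnitalCStarAlgebra A] [PartialOrder A] [StarOrderedRing A],
      TameDimLE n A → Coincide A) ∧
    (∀ (A : Type u) [NonUnitalCStarAlgebra A] [PartialOrder A] [StarOrderedRing A],
      IsChainC A ∨ IsTopDimZero A → TameDimLE 0 A) :=
  ⟨fun _ _ _ _ hW => ⟨fun _ a0 => ⟨fun _ hJ haJ => exists_below hW a0 hJ haJ,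
      exists_essential hW a0⟩, ⟨sum_of_pi, pi_of_sum hW⟩⟩,
    fun n _ _ _ _ h => builtI_coincide (.dim _ n h),
    fun _ _ _ _ h => h.elim tame_of_chain tame_of_topDimZero⟩

end Vale.Agent.Results.P133.GenericForm
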